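import Vale.Agent.P225.Assembly.Real.Points

/-!
P225, assembly: the operators of a cluster respect the real structure and the parity.
-/

noncomputable section

namespace Vale.Agent.P225.Real'

open Matrix SU2 Set MeasureTheory
open scoped ComplexOrder Matrix.Norms.L2Operator

attribute [local irreducible] band

variable {d : PathData} {r₂ β φ₀ : ℝ} {K : ℕ}

theorem respK_commute {X : Op (PntK K)} (h : RespK X) (o : Fin 3 → Bool) :
    Commute (sibProj (parPnt (K := K)) o) X := sibProj_commute h.2 o

theorem respK_truncOp (p : Param) (t : ℝ) : RespK (truncOp d p K t) :=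
  respK_gauge _ fun q => linkOp_real _ q

/-- Solutions with real, parity preserving coefficient and start have such values and backward
maps. -/
theorem respK_riccati {A W R : ℝ → Op (PntK K)} {ν : ℝ → ℝ} {a b : ℝ}
    (hν : ContinuousOn ν (Icc a b)) (hW : IsRiccati A ν W a b) (hA : ∀ t ∈ Icc a b, RespK (A t))
    (h0 : RespK (W a)) (hR : IsBack W R a b) :
    ∀ t ∈ Icc a b, RespK (W t) ∧ RespK (R t) := by
  intro t ht
  obtain ⟨r1, r2⟩ := riccati_real hν hW (fun s hs => (hA s hs).1) h0.1 hR t ht
  have c1 : ∀ o, ∀ s ∈ Icc a b, Commute (sibProj (parPnt (K := K)) o) (W s) := fun o =>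
    riccati_commute hν hW (fun s hs => respK_commute (hA s hs) o) (respK_commute h0 o)
  have hWc : ContinuousOn W (Icc a b) := fun s hs => (hW s hs).continuousAt.continuousWithinAt
  exact ⟨⟨r1, class_of_commute fun o => c1 o t ht⟩,
    ⟨r2, class_of_commute fun o => back_commute hWc hR (c1 o) t ht⟩⟩

theorem respK_freeDiag (t : ℝ) : RespK (freeDiag d r₂ β K t) :=
  respK_diag fun l => freeRate d r₂ β l t

theorem respK_truncW (hd : d.Good r₂ β φ₀) {p : Param} (hp : InBox d p) {t : ℝ}
    (ht : startTime r₂ ≤ t) : RespK (truncW d r₂ β p K t) := by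
  obtain ⟨h0, hW⟩ := truncW_spec hd hp K
  exact (respK_riccati (Trunc.pathDamp_cont hd).continuousOn (hW t).1
    (fun s _ => respK_truncOp p s) (by rw [h0]; exact respK_freeDiag _)
    (truncBack_spec hd hp K le_rfl t) t (right_mem_Icc.2 ht)).1

theorem respK_truncBack (hd : d.Good r₂ β φ₀) {p : Param} (hp : InBox d p) {a b : ℝ}
    (ha : startTime r₂ ≤ a) (hab : a ≤ b) : RespK (truncBack d r₂ β p K a b) := by
  obtain ⟨-, hW⟩ := truncW_spec hd hp K
  exact (respK_riccati (Trunc.pathDamp_cont hd).continuousOn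
    (fun s hs => (hW b).1 s ⟨ha.trans hs.1, hs.2⟩)
    (fun s _ => respK_truncOp p s) (respK_truncW hd hp ha)
    (truncBack_spec hd hp K ha b) b (right_mem_Icc.2 hab)).2

theorem respK_segBack (hd : d.Good r₂ β φ₀) {p : Param} (hp : InBox d p) {i l : ℕ}
    (hl : l < (d.plan (d.j₀ + i)).length) :
    RespK (segBack d r₂ β p K i l (segEnd d i l)) := by
  obtain ⟨h0, hV, -, hR⟩ := segRef_spec hd hp K i hl
  exact (respK_riccati (Trunc.pathDamp_cont hd).continuousOn hV (fun s _ => respK_truncOp p s)
    (by rw [h0]; exact respK_freeDiag _) hR _ (right_mem_Icc.2 (Trunc.seg_le hd hl))).2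

/-- An integral of real parity preserving operators is one. -/
theorem respK_integral {F : ℝ → Op (PntK K)} {a b : ℝ} (hab : a ≤ b)
    (hF : ContinuousOn F (Icc a b)) (h : ∀ u ∈ Icc a b, RespK (F u)) :
    RespK (∫ u in a..b, F u) := by
  have hi : IntervalIntegrable F volume a b := hF.intervalIntegrable_of_Icc hab
  refine ⟨(thetaHom_fixed _).1 ?_, fun x y hxy => ?_⟩
  · have e := (LinearMap.toContinuousLinearMap (thetaHom K).toLinearMap).intervalIntegral_comp_comm hi
    simp only [LinearMap.coe_toContinuousLinearMap', AlgHom.toLinearMap_apply] at e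
    rw [← e]
    exact intervalIntegral.integral_congr fun u hu =>
      (thetaHom_fixed _).2 (h u (uIcc_of_le hab ▸ hu)).1
  · have e := (LinearMap.toContinuousLinearMap
      (Matrix.entryLinearMap ℝ ℂ x y : Op (PntK K) →ₗ[ℝ] ℂ)).intervalIntegral_comp_comm hi
    simp only [LinearMap.coe_toContinuousLinearMap', Matrix.entryLinearMap_apply] at e
    rw [← e, intervalIntegral.integral_congr (g := fun _ => (0 : ℂ))
      fun u hu => (h u (uIcc_of_le hab ▸ hu)).2 x y hxy]
    exact intervalIntegral.integral_zero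

theorem respK_segErr (hd : d.Good r₂ β φ₀) {p : Param} (hp : InBox d p) {i l : ℕ}
    (hl : l < (d.plan (d.j₀ + i)).length) : RespK (segErr d r₂ β p K i l) := by
  have hs : startTime r₂ ≤ segStart d i l := (Trunc.seg_times hd hl).2.2.2.2
  have hab := Trunc.seg_le hd hl
  refine Resp.mul ?_ ((respK_truncW hd hp hs).sub (respK_freeDiag _))
  have hRc : ContinuousOn (fun u => truncBack d r₂ β p (K + 40) (segStart d i l) u)
      (Icc (segStart d i l) (segEnd d i l)) := fun u hu =>
    ((truncBack_spec hd hp (K + 40) hs _).2 u hu).continuousAt.continuousWithinAt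
  refine respK_integral hab ?_ fun u hu => ?_
  · have he : Continuous fun u => Real.exp (-∫ w in segStart d i l..u, pathDamp d w) :=
      (intervalIntegral.continuous_primitive
        (fun a b => (Trunc.pathDamp_cont hd).intervalIntegrable a b) _).neg.rexp
    exact he.continuousOn.smul (hRc.mul ((continuous_star.comp_continuousOn hRc).congr
      fun u _ => rfl))
  · have hR := respK_truncBack (K := K + 40) hd hp hs hu.1
    rw [← Complex.coe_smul]
    exact (hR.mul (hR.conjTranspose (thetaMat_unitary _))).real_smul _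

theorem stage_len {S : Schedule} {R : ℕ} (h : S.Adm R d r₂ β φ₀) (i : ℕ) :
    (d.plan (d.j₀ + i)).length = (S.cd (d.j₀ + i)).len := by
  rw [h.plan_eq]
  simp [Schedule.plan, ClusterData.stagePlan]

theorem tgt_real (c : ClusterData) (l : Fin c.len) (z : ℂ) (q : ℕ × ℕ) :
    IsRealBlk q (extBlk ((c.stage l).spec.tgt z) q) := by
  unfold extBlk
  split_ifs with hq
  · exact (c.spec.target _ (List.mem_ofFn.2 ⟨l, rfl⟩) z ⟨q, hq⟩).1
  · simp [IsRealBlk]

theorem respK_idealSeg (hd : d.Good r₂ β φ₀) {p : Param} (hp : InBox d p) {i l : ℕ}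
    (hl : l < (d.plan (d.j₀ + i)).length) (s : StageSpec) (z : ℂ)
    (hs : ∀ q, IsRealBlk q (extBlk (s.tgt z) q)) :
    RespK (idealSeg d r₂ β p K i l s z) := by
  classical
  let D1 : Lbl → ℝ := fun t => if t ∈ band then
    Real.exp (-(freeDecay d r₂ β (segStart d i l) (ctrlStart d i l) t) -
      stageShift d r₂ β p s.gauge i l t) else 0
  let D2 : Lbl → ℝ := fun t => if t ∈ band then
    Real.exp (-(freeDecay d r₂ β (ctrlStart d i l) (segEnd d i l) t)) else 0
  let D3 : Lbl → ℝ := fun t => if t ∈ band ∨ t = 0 then 0 else 1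
  have h0 : (0 : Lbl) ∉ band := fun h => (mem_band.1 h).2.2 rfl
  have e : idealSeg d r₂ β p K i l s z =
      (diagonal fun x : PntK (K + 40) => (D1 (lab x.out) : ℂ)) *
          gaugeMat (K + 40) s.gauge (extBlk (s.tgt z)) *
          (diagonal fun x : PntK (K + 40) => (D2 (lab x.out) : ℂ)) +
        (diagonal fun x : PntK (K + 40) => (D3 (lab x.out) : ℂ)) *
          segBack d r₂ β p (K + 40) i l (segEnd d i l) *
          (diagonal fun x : PntK (K + 40) => (D3 (lab x.out) : ℂ)) := by
    ext x y
    simp only [idealSeg, Matrix.add_apply, mul_diagonal, diagonal_mul, gaugeMat, D1, D2, D3]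
    by_cases hx : lab x.out ∈ band
    · by_cases hy : lab y.out ∈ band <;> simp [hx, hy]
    · by_cases hy : lab y.out ∈ band
      · simp [hx, hy]
      · by_cases hx0 : lab x.out = 0
        · simp [hx0, h0]
        · by_cases hy0 : lab y.out = 0 <;> simp [hx, hy, hx0, hy0, h0]
  rw [e]
  exact (((respK_diag D1).mul (respK_gauge _ hs)).mul (respK_diag D2)).add
    (((respK_diag D3).mul (respK_segBack hd hp hl)).mul (respK_diag D3))

theorem respK_rawMap {S : Schedule} {R : ℕ} (h : S.Adm R d r₂ β φ₀) {p : Param}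
    (hp : InBox d p) (i : ℕ) (z : ℕ → ℂ) :
    RespK (rawMap d r₂ β p (S.cd (d.j₀ + i)) K i z) := by
  have hl : ∀ l, l < (S.cd (d.j₀ + i)).len → l < (d.plan (d.j₀ + i)).length := fun l hlt =>
    (stage_len h i).symm ▸ hlt
  have hI : ∀ l, RespK (idealFun d r₂ β p (S.cd (d.j₀ + i)) K i z l) := fun l => by
    unfold idealFun
    split_ifs with hlt
    · exact respK_idealSeg h.good hp (hl l hlt) _ _ (tgt_real _ _ _)
    · exact Resp.one
  refine (segProd_resp hI _ _).sub (Resp.sum _ fun l hlm => ?_)
  have hlt := Finset.mem_range.1 hlm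
  refine ((respK_truncBack h.good hp ?_ ?_).mul (respK_segErr h.good hp (hl l hlt))).mul
    (segProd_resp hI _ _)
  · exact Trunc.startTime_le h.good (Trunc.clusterStart_ge h.good i)
  · exact Trunc.clusterStart_le_stageStart h.good (hl l hlt).le

theorem respB_labDiag (a : Lbl → ℝ) : RespB (labDiag a) :=
  respB_diag fun t => Real.exp (-a t)

theorem respB_clusterProd (c : ClusterData) (a : ℕ → Lbl → ℝ) (z : ℕ → ℂ) :
    RespB (clusterProd c.specs a z) := by
  refine (Resp.listProd fun X hX => ?_).mul (respB_labDiag _)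
  obtain ⟨k, hk, rfl⟩ := List.mem_map.1 hX
  refine (respB_labDiag _).mul ?_
  have hk' : k < c.specs.length := List.mem_range.1 hk
  have hk'' : k < c.len := by simpa [ClusterData.specs] using hk'
  rw [List.getElem?_eq_getElem hk', Option.map_some, Option.getD_some]
  refine bandOf_resp _ fun q => ?_
  have e : c.specs[k] = (c.stage ⟨k, hk''⟩).spec := by simp [ClusterData.specs]
  rw [e]
  exact tgt_real c _ _ q

theorem respB_clusterMono (p : Param) (c : ClusterData) (i : ℕ) :
    RespB (clusterMono d r₂ β p c i) := respB_clusterProd c _ _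

end Vale.Agent.P225.Real'
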