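import Vale.Agent.P225.Assembly.Real.Tools

/-!
P225, assembly: the real structure and the parity on truncated points and on the band.
-/

noncomputable section

namespace Vale.Agent.P225.Real'

open Matrix SU2
open scoped ComplexOrder Matrix.Norms.L2Operator

attribute [local irreducible] band

/-- Parity of a truncated point. -/
def parPnt {K : ℕ} (x : PntK K) : Fin 3 → Bool := parity (lab x.out)

/-- Real and parity preserving, on truncated points. -/
abbrev RespK {K : ℕ} (X : Op (PntK K)) : Prop :=
  Resp (thetaMat K) (thetaMat K) parPnt parPnt X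

/-- Parity of a band point. -/
def parBand (x : BPt) : Fin 3 → Bool := parity (uOf x).lbl

/-- Parity of a point off the band. -/
def parOff {K : ℕ} (x : QPt (K + 40)) : Fin 3 → Bool := parity (lab x.1.out)

/-- Real and parity preserving, on the band. -/
abbrev RespB (X : Matrix BPt BPt ℂ) : Prop := Resp bandTheta bandTheta parBand parBand X

/-- The real structure off the band. -/
abbrev thetaOff (K : ℕ) : Matrix (QPt (K + 40)) (QPt (K + 40)) ℂ :=
  (thetaMat (K + 40)).submatrix (fun x : QPt (K + 40) => x.1) (fun x : QPt (K + 40) => x.1)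

/-- The real structure on the band in the point basis. -/
abbrev thetaPt : Matrix BPt BPt ℂ := (thetaMat 20).submatrix (fun x => x.1) (fun x => x.1)

theorem thetaMat_lab {K : ℕ} {x y : PntK K} (h : thetaMat K x y ≠ 0) : lab x.out = lab y.out := by
  by_cases h' : x.1 = y.1
  · exact congrArg (fun t => fun k => (t.1 k : ℕ)) h'
  · exact absurd (dif_neg h') h

theorem thetaMat_unitary (K : ℕ) : (thetaMat K)ᴴ * thetaMat K = 1 := by
  classical
  set T := tessMat K
  obtain ⟨hT1, hT2⟩ := tessMat_unitary (K := K)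
  let F : Op (PntK K) := fun z y => if z = flipPnt y then flipPntSgn y else 0
  have hF : thetaMat K * T.map star = T * F := by
    rw [thetaMat_tess]
    ext x y
    rw [Matrix.mul_apply]
    simp [F, T, mul_comm]
  have hFF : Fᴴ * F = 1 := by
    ext y z
    rw [Matrix.mul_apply, Finset.sum_eq_single (flipPnt y) (fun w _ hw => by rw [show Fᴴ y w = star (F w y) from rfl]; simp [F, hw]) (by simp),
      conjTranspose_apply]
    simp only [F, if_true, Matrix.one_apply]
    by_cases h : y = z
    · subst h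
      rw [if_pos rfl, if_pos rfl, (flipPntSgn_sq y).1, (flipPntSgn_sq y).2]
    · rw [if_neg h, if_neg fun e => h (flipPnt_involutive.injective e), mul_zero]
  have hTs : T.map star * Tᵀ = 1 := by
    rw [show Tᵀ = (Tᴴ).map star by ext i j; simp, ← SU2.map_star_mul, hT2,
      Matrix.map_one _ (star_zero ℂ) (star_one ℂ)]
  have hθ : thetaMat K = T * F * Tᵀ := by rw [← hF, mul_assoc, hTs, mul_one]
  calc (thetaMat K)ᴴ * thetaMat K = T.map star * (Fᴴ * ((Tᴴ * T) * (F * Tᵀ))) := by
        rw [hθ, conjTranspose_mul, conjTranspose_mul,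
          show (Tᵀ)ᴴ = T.map star by ext i j; simp]
        simp only [mul_assoc]
    _ = 1 := by rw [hT1, one_mul, ← mul_assoc Fᴴ, hFF, one_mul, hTs]

theorem theta_bIdx (K : ℕ) (x y : BPt) :
    thetaMat (K + 40) (bIdx K x) (bIdx K y) = thetaMat 20 x.1 y.1 := by
  by_cases h : x.1.1 = y.1.1
  · have h' : (bIdx K x).1 = (bIdx K y).1 := by
      refine Subtype.ext (funext fun k => Fin.ext ?_)
      exact congrArg (fun t => (t.1 k : ℕ)) h
    rw [thetaMat_numbers _ _ h, thetaMat_numbers _ _ h']
    rfl
  · rw [show thetaMat 20 x.1 y.1 = 0 from dif_neg h]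
    refine dif_neg fun h' => h (Subtype.ext (funext fun k => Fin.ext ?_))
    exact congrArg (fun t => (t.1 k : ℕ)) h'

theorem bIdx_injective (K : ℕ) : Function.Injective (bIdx K) := fun x y h =>
  Subtype.ext (PntK.out_injective (congrArg PntK.out h :))

theorem bIdx_range {K : ℕ} {z : PntK (K + 40)} (h : lab z.out ∈ band) : z ∈ Set.range (bIdx K) := by
  have hlt : ∀ k, lab z.out k < 20 + 1 := fun k => by
    obtain ⟨-, h2, -⟩ := mem_band.1 h
    have h3 : lab z.out k * (lab z.out k + 2) ≤ cut (lab z.out) :=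
      (Finset.single_le_sum (f := fun j => lab z.out j * (lab z.out j + 2))
        (fun j _ => Nat.zero_le _) (Finset.mem_univ k)).trans h2
    have h4 : cut (lab z.out) ≤ 402 := by unfold cut; split_ifs <;> omega
    nlinarith
  obtain ⟨⟨t, ht⟩, m⟩ := z
  exact ⟨⟨⟨⟨fun k => ⟨(t k : ℕ), hlt k⟩, ht⟩, m⟩, h⟩, rfl⟩

theorem tess_lab {K : ℕ} {x y : PntK K} (h : tessMat K x y ≠ 0) : lab x.out = lab y.out := by
  by_cases h' : x.1 = y.1
  · exact congrArg (fun t => fun k => (t.1 k : ℕ)) h'
  · exact absurd (tessMat_apply_ne h') h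

/-- Restriction of a matrix to a set of indices. -/
def res {α : Type} (q : α → Prop) (A : Matrix α α ℂ) : Matrix (Subtype q) (Subtype q) ℂ :=
  Matrix.of fun x y => A x.1 y.1

/-- Products of restrictions to an invariant set. -/
theorem res_mul {α : Type} [Fintype α] [DecidableEq α] (q : α → Prop) [DecidablePred q]
    [Fintype (Subtype q)] (A B : Matrix α α ℂ) (h : ∀ x z, A x z ≠ 0 → q x → q z) :
    res q A * res q B = res q (A * B) := by
  ext x y
  simp only [Matrix.mul_apply, res, Matrix.of_apply]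
  rw [← Finset.sum_filter_add_sum_filter_not (Finset.univ (α := α)) q,
    Finset.sum_eq_zero (s := Finset.univ.filter fun z : α => ¬ q z) (fun z hz => by
      rw [Finset.mem_filter] at hz
      by_contra hf
      exact hz.2 (h _ z (left_ne_zero_of_mul hf) x.2)), add_zero]
  exact (Finset.sum_subtype (p := q) (Finset.univ.filter q) (fun z => by simp)
    (fun z => A x.1 z * B z y.1)).symm

theorem res_conjTranspose {α : Type} (q : α → Prop) (A : Matrix α α ℂ) :
    (res q A)ᴴ = res q Aᴴ := rfl

/-- The restriction of a unitary keeping an invariant set. -/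
theorem res_unitary {α : Type} [Fintype α] [DecidableEq α] (q : α → Prop) [DecidablePred q]
    [Fintype (Subtype q)] [DecidableEq (Subtype q)] {A : Matrix α α ℂ} (hA : Aᴴ * A = 1)
    (h : ∀ x z, A z x ≠ 0 → q x → q z) : (res q A)ᴴ * res q A = 1 := by
  rw [res_conjTranspose, res_mul q Aᴴ A (fun x z hz => h x z fun h0 => hz (by simp [h0])), hA]
  ext x y
  simp only [res, Matrix.of_apply, Matrix.one_apply, Subtype.ext_iff]

/-- The real structure in the tesseral basis is a signed flip. -/
theorem tess_flip {K : ℕ} (x y : PntK K) :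
    ((tessMat K)ᴴ * (thetaMat K * (tessMat K).map star)) x y =
      if x = flipPnt y then flipPntSgn y else 0 := by
  classical
  have h := congrFun (congrFun (tessMat_unitary (K := K)).1 x) (flipPnt y)
  rw [Matrix.mul_apply] at h
  rw [thetaMat_tess]
  show ∑ z, (tessMat K)ᴴ x z * (flipPntSgn y * tessMat K z (flipPnt y)) = _
  calc _ = flipPntSgn y * ∑ z, (tessMat K)ᴴ x z * tessMat K z (flipPnt y) := by
        rw [Finset.mul_sum]
        exact Finset.sum_congr rfl fun z _ => by ring
    _ = _ := by rw [h, Matrix.one_apply, mul_ite, mul_one, mul_zero]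

/-- The restricted real structure in the restricted tesseral basis. -/
theorem res_flip {K : ℕ} (q : PntK K → Prop) [DecidablePred q] [Fintype (Subtype q)]
    (hq : ∀ a b : PntK K, lab a.out = lab b.out → q a → q b) (x y : Subtype q) :
    ((res q (tessMat K))ᴴ * res q (thetaMat K) * (res q (tessMat K)).map star :
        Matrix (Subtype q) (Subtype q) ℂ) x y =
      if x.1 = flipPnt y.1 then flipPntSgn y.1 else 0 := by
  classical
  rw [res_conjTranspose, Matrix.mul_assoc,
    show (res q (tessMat K)).map star = res q ((tessMat K).map star) from rfl,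
    res_mul q _ _ (fun a b h => hq a b (thetaMat_lab h)),
    res_mul q _ _ (fun a b h => hq a b (tess_lab (x := b) (y := a)
      fun h0 => h (by rw [conjTranspose_apply, h0, star_zero])).symm)]
  exact tess_flip x.1 y.1

/-- The points of the band, as a property. -/
abbrev OnBand {K : ℕ} (x : PntK K) : Prop := lab x.out ∈ band

theorem adaptBasis_res : adaptBasis = res (OnBand (K := 20)) (tessMat 20) := rfl

theorem adaptBasis_unitary : adaptBasisᴴ * adaptBasis = 1 ∧ adaptBasis * adaptBasisᴴ = 1 := by
  have h : adaptBasisᴴ * adaptBasis = 1 := by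
    rw [adaptBasis_res]
    exact res_unitary _ tessMat_unitary.1 fun x z hz hx => by rwa [OnBand, tess_lab hz]
  exact ⟨h, mul_eq_one_comm_of_equiv (Equiv.refl BPt) |>.1 h⟩

theorem bandTheta_eq :
    bandTheta = adaptBasisᴴ * thetaPt * adaptBasis.map star := rfl

/-- The real structure of the band is a signed flip in the adapted basis. -/
theorem bandTheta_apply (x y : BPt) :
    bandTheta x y = if x.1 = flipPnt y.1 then flipPntSgn y.1 else 0 := by
  rw [bandTheta_eq, adaptBasis_res]
  exact res_flip (OnBand (K := 20)) (fun a b h ha => by rwa [OnBand, ← h]) x y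

theorem bandTheta_uOf {x y : BPt} (h : bandTheta x y ≠ 0) : uOf x = uOf y := by
  rw [bandTheta_apply] at h
  split_ifs at h with hxy
  swap
  · exact absurd rfl h
  refine UPoint.ext ?_ (funext fun k => ?_)
  · show lab x.1.out = lab y.1.out
    rw [hxy]; rfl
  · show unsIdx (lab x.1.out k) (idx x.1.out k) = unsIdx (lab y.1.out k) (idx y.1.out k)
    rw [hxy]
    show unsIdx (lab y.1.out k) (flipIdx (y.1.1.1 k) (y.1.2 k) : ℕ) = _
    unfold unsIdx flipIdx
    have hlt := (y.1.2 k).isLt
    rcases Nat.mod_two_eq_zero_or_one (lab y.1.out k) with he | he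
    · rw [if_pos he, if_neg (show ¬(y.1.1.1 k : ℕ) % 2 = 1 by
        have : (y.1.1.1 k : ℕ) % 2 = 0 := he
        omega), if_pos he]
      rfl
    · rw [if_neg (by omega), if_pos (show (y.1.1.1 k : ℕ) % 2 = 1 from he), if_neg (by omega),
        val_rev]
      change min ((y.1.1.1 k : ℕ) - (y.1.2 k : ℕ)) ((y.1.1.1 k : ℕ) - ((y.1.1.1 k : ℕ) -
        (y.1.2 k : ℕ))) = min (y.1.2 k : ℕ) ((y.1.1.1 k : ℕ) - (y.1.2 k : ℕ))
      have : (y.1.2 k : ℕ) ≤ (y.1.1.1 k : ℕ) := Nat.lt_succ_iff.1 hlt
      omega

theorem respB_diag (f : Lbl → ℝ) :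
    RespB (diagonal fun x : BPt => (f (lab x.1.out) : ℂ)) := by
  refine ⟨?_, fun x y h => diagonal_apply_ne _ fun e => h (congrArg parBand e)⟩
  ext x y
  rw [diagonal_map (star_zero ℂ), mul_diagonal, diagonal_mul, Complex.star_def, Complex.conj_ofReal]
  by_cases h : bandTheta x y = 0
  · rw [h, mul_zero, zero_mul]
  · rw [show lab x.1.out = lab y.1.out from congrArg UPoint.lbl (bandTheta_uOf h), mul_comm]

theorem respK_diag {K : ℕ} (f : Lbl → ℝ) :
    RespK (diagonal fun x : PntK K => (f (lab x.out) : ℂ)) :=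
  ⟨diagonal_lab_real f, fun x y h => diagonal_apply_ne _ fun e => h (congrArg parPnt e)⟩

theorem parity_of_same {G : Fin 3} {x y : Pnt} (h : SameBlk G x y) :
    parity (lab x) = parity (lab y) := by
  have hx := Nat.even_iff.1 ((lblOK_iff (lab x) G).1 x.1.2).1
  have hy := Nat.even_iff.1 ((lblOK_iff (lab y) G).1 y.1.2).1
  funext k
  rcases fin3_cases G k with rfl | rfl | rfl <;> unfold parity
  · have h1 := h.1
    have h2 := h.2.1
    rw [show lab x k % 2 = lab y k % 2 by omega]
  · rw [h.1]
  · rw [h.2.1]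

theorem respK_gauge {K : ℕ} (G : Fin 3) {M : ∀ p, BlkMat p} (hM : ∀ p, IsRealBlk p (M p)) :
    RespK (gaugeMat K G M) :=
  ⟨gaugeMat_real hM, fun _ _ h => gaugeEntry_of_not fun hs => h (parity_of_same hs)⟩

theorem adaptBasis_resp : Resp thetaPt bandTheta parBand parBand adaptBasis := by
  refine ⟨?_, fun x y h => ?_⟩
  · rw [bandTheta_eq, ← Matrix.mul_assoc, ← Matrix.mul_assoc, adaptBasis_unitary.2,
      Matrix.one_mul]
  · by_contra h0
    exact h (congrArg parity (tess_lab (x := x.1) (y := y.1) h0))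

theorem adaptBasis_adjoint_resp : Resp bandTheta thetaPt parBand parBand adaptBasisᴴ := by
  refine ⟨?_, fun x y h => ?_⟩
  · rw [bandTheta_eq, Matrix.mul_assoc, ← SU2.map_star_mul, adaptBasis_unitary.2,
      Matrix.map_one _ (star_zero ℂ) (star_one ℂ), Matrix.mul_one]
  · rw [conjTranspose_apply, star_eq_zero]
    by_contra h0
    exact h (congrArg parity (tess_lab (x := y.1) (y := x.1) h0)).symm

theorem band20_resp : Resp (thetaMat 20) thetaPt parPnt parBand (sel fun x : BPt => x.1) :=
  sel_resp Subtype.val_injective (fun _ _ => rfl)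
    (fun x z h => ⟨⟨z, (thetaMat_lab h).symm ▸ x.2⟩, rfl⟩) fun _ => rfl

theorem band20_adjoint_resp :
    Resp thetaPt (thetaMat 20) parBand parPnt (sel fun x : BPt => x.1)ᴴ :=
  sel_adjoint_resp Subtype.val_injective (fun _ _ => rfl)
    (fun x z h => ⟨⟨z, thetaMat_lab h ▸ x.2⟩, rfl⟩) fun _ => rfl

theorem bandLift_eq (K : ℕ) : bandLift K = sel (bIdx K) * adaptBasis := rfl

theorem bandLift_resp (K : ℕ) :
    Resp (thetaMat (K + 40)) bandTheta parPnt parBand (bandLift K) := by
  rw [bandLift_eq]
  exact (sel_resp (bIdx_injective K) (fun x y => (theta_bIdx K x y).symm)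
    (fun x z h => bIdx_range (by rw [thetaMat_lab h]; exact x.2)) fun _ => rfl).mul adaptBasis_resp

theorem bandLift_adjoint_resp (K : ℕ) :
    Resp bandTheta (thetaMat (K + 40)) parBand parPnt (bandLift K)ᴴ := by
  rw [bandLift_eq, conjTranspose_mul]
  exact adaptBasis_adjoint_resp.mul (sel_adjoint_resp (bIdx_injective K)
    (fun x y => (theta_bIdx K x y).symm)
    (fun x z h => bIdx_range (by rw [← thetaMat_lab h]; exact x.2)) fun _ => rfl)

theorem qLift_resp (K : ℕ) :
    Resp (thetaMat (K + 40)) (thetaOff K) parPnt parOff (qLift K) :=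
  sel_resp (e := fun x : QPt (K + 40) => x.1) Subtype.val_injective (fun _ _ => rfl)
    (fun x z h => ⟨⟨z, (thetaMat_lab h).symm ▸ x.2⟩, rfl⟩) fun _ => rfl

theorem qLift_adjoint_resp (K : ℕ) :
    Resp (thetaOff K) (thetaMat (K + 40)) parOff parPnt (qLift K)ᴴ :=
  sel_adjoint_resp (e := fun x : QPt (K + 40) => x.1) Subtype.val_injective (fun _ _ => rfl)
    (fun x z h => ⟨⟨z, thetaMat_lab h ▸ x.2⟩, rfl⟩) fun _ => rfl

/-- A gauge operator on the band. -/
theorem bandOf_resp (G : Fin 3) {M : ∀ p, BlkMat p} (hM : ∀ p, IsRealBlk p (M p)) :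
    RespB (bandOf G M) := by
  have e : (Matrix.of fun x y : BPt => gaugeEntry G M x.1.out y.1.out) =
      (sel fun x : BPt => x.1)ᴴ * gaugeMat 20 G M * sel fun x : BPt => x.1 := by
    ext x y
    simp [Matrix.mul_apply, sel_apply, sel_conjTranspose, gaugeMat]
  rw [bandOf, e]
  exact (adaptBasis_adjoint_resp.mul
    ((band20_adjoint_resp.mul (respK_gauge G hM)).mul band20_resp)).mul adaptBasis_resp

end Vale.Agent.P225.Real'
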