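import Vale.Agent.P225.Assembly.Ideal
import Vale.Agent.P225.Stage.Real

/-!
P225, assembly: maps fixed by a real structure and graded by classes.
-/

noncomputable section

namespace Vale.Agent.P225.Real'

open Matrix SU2
open scoped ComplexOrder Matrix.Norms.L2Operator

set_option linter.unusedSectionVars false

variable {l m n C : Type} [Fintype l] [Fintype m] [Fintype n] [DecidableEq l] [DecidableEq m]
  [DecidableEq n]

/-- Intertwines the real structures and joins only equal classes. -/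
def Resp (θl : Matrix l l ℂ) (θm : Matrix m m ℂ) (cl : l → C) (cm : m → C)
    (X : Matrix l m ℂ) : Prop :=
  θl * X.map star = X * θm ∧ ∀ x y, cl x ≠ cm y → X x y = 0

variable {θl : Matrix l l ℂ} {θm : Matrix m m ℂ} {θn : Matrix n n ℂ} {cl : l → C} {cm : m → C}
  {cn : n → C}

theorem Resp.mul {X : Matrix l m ℂ} {Y : Matrix m n ℂ} (hX : Resp θl θm cl cm X)
    (hY : Resp θm θn cm cn Y) : Resp θl θn cl cn (X * Y) := by
  refine ⟨?_, fun x y hxy => ?_⟩
  · rw [SU2.map_star_mul, ← Matrix.mul_assoc, hX.1, Matrix.mul_assoc, hY.1, Matrix.mul_assoc]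
  · rw [Matrix.mul_apply]
    refine Finset.sum_eq_zero fun z _ => ?_
    by_cases h : cl x = cm z
    · rw [hY.2 z y (h ▸ hxy), mul_zero]
    · rw [hX.2 x z h, zero_mul]

theorem Resp.add {X Y : Matrix l m ℂ} (hX : Resp θl θm cl cm X) (hY : Resp θl θm cl cm Y) :
    Resp θl θm cl cm (X + Y) :=
  ⟨by rw [Matrix.map_add _ star_add, Matrix.mul_add, hX.1, hY.1, Matrix.add_mul],
    fun x y h => by rw [Matrix.add_apply, hX.2 x y h, hY.2 x y h, add_zero]⟩

theorem Resp.sub {X Y : Matrix l m ℂ} (hX : Resp θl θm cl cm X) (hY : Resp θl θm cl cm Y) :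
    Resp θl θm cl cm (X - Y) :=
  ⟨by rw [Matrix.map_sub _ star_sub, Matrix.mul_sub, hX.1, hY.1, Matrix.sub_mul],
    fun x y h => by rw [Matrix.sub_apply, hX.2 x y h, hY.2 x y h, sub_zero]⟩

theorem Resp.zero : Resp θl θm cl cm 0 := ⟨by simp, fun _ _ _ => rfl⟩

theorem Resp.sum {ι : Type*} (s : Finset ι) {X : ι → Matrix l m ℂ}
    (h : ∀ i ∈ s, Resp θl θm cl cm (X i)) : Resp θl θm cl cm (∑ i ∈ s, X i) :=
  Finset.sum_induction X (Resp θl θm cl cm) (fun _ _ => Resp.add) Resp.zero h

theorem Resp.one : Resp θn θn cn cn 1 :=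
  ⟨by rw [Matrix.map_one _ (star_zero ℂ) (star_one ℂ), Matrix.mul_one, Matrix.one_mul],
    fun x y h => Matrix.one_apply_ne fun e => h (congrArg cn e)⟩

theorem Resp.listProd {L : List (Matrix n n ℂ)} (h : ∀ X ∈ L, Resp θn θn cn cn X) :
    Resp θn θn cn cn L.prod := by
  induction L with
  | nil => rw [List.prod_nil]; exact Resp.one
  | cons X L ih =>
    rw [List.prod_cons]
    exact (h X List.mem_cons_self).mul (ih fun Y hY => h Y (List.mem_cons_of_mem _ hY))

theorem segProd_resp {Q : ℕ → Matrix n n ℂ} (h : ∀ k, Resp θn θn cn cn (Q k)) (k j : ℕ) :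
    Resp θn θn cn cn (segProd Q k j) := by
  induction j with
  | zero => rw [segProd]; exact Resp.one
  | succ j ih =>
    rw [segProd]
    split_ifs
    exacts [ih.mul (h j), Resp.one]

theorem Resp.real_smul {X : Matrix l m ℂ} (hX : Resp θl θm cl cm X) (r : ℝ) :
    Resp θl θm cl cm ((r : ℂ) • X) := by
  refine ⟨?_, fun x y h => by rw [Matrix.smul_apply, hX.2 x y h, smul_zero]⟩
  rw [show ((r : ℂ) • X).map star = (r : ℂ) • X.map star by
    ext i j
    simp, Matrix.mul_smul, hX.1, Matrix.smul_mul]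

/-- The part inside the classes of `σ`, when the real structure keeps them. -/
theorem Resp.sib {Ω : Type} [DecidableEq Ω] {σ : n → Ω}
    (hσ : ∀ x y, θn x y ≠ 0 → σ x = σ y) {X : Matrix n n ℂ} (hX : Resp θn θn cn cn X) :
    Resp θn θn cn cn (Vale.Agent.P225.sibPart σ X) := by
  refine ⟨?_, fun x y h => by simp [Vale.Agent.P225.sibPart, hX.2 x y h]⟩
  ext x y
  have h1 := congrFun (congrFun hX.1 x) y
  simp only [Matrix.mul_apply, Matrix.map_apply, Vale.Agent.P225.sibPart] at h1 ⊢
  have e1 : ∀ z, θn x z * star (if σ z = σ y then X z y else 0) =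
      (if σ x = σ y then θn x z * star (X z y) else 0) := fun z => by
    by_cases hz : θn x z = 0
    · simp [hz]
    · rw [hσ x z hz, apply_ite star, mul_ite, star_zero, mul_zero]
  have e2 : ∀ z, (if σ x = σ z then X x z else 0) * θn z y =
      (if σ x = σ y then X x z * θn z y else 0) := fun z => by
    by_cases hz : θn z y = 0
    · simp [hz]
    · rw [hσ z y hz, ite_mul, zero_mul]
  simp only [e1, e2]
  split_ifs
  · exact h1
  · simp

theorem sibProj_commute [DecidableEq C] {X : Matrix n n ℂ}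
    (h : ∀ x y, cn x ≠ cn y → X x y = 0) (o : C) : Commute (sibProj cn o) X := by
  ext x y
  simp only [sibProj, Matrix.diagonal_mul, Matrix.mul_diagonal]
  by_cases hxy : cn x = cn y
  · rw [hxy, mul_comm]
  · simp [h x y hxy]

theorem class_of_commute [DecidableEq C] {X : Matrix n n ℂ}
    (h : ∀ o, Commute (sibProj cn o) X) (x y : n) (hxy : cn x ≠ cn y) : X x y = 0 := by
  have h' := congrFun (congrFun (h (cn x)).eq x) y
  simpa [sibProj, Matrix.diagonal_mul, Matrix.mul_diagonal, Ne.symm hxy] using h'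

theorem Resp.inv [DecidableEq C] {X : Matrix n n ℂ} (hX : Resp θn θn cn cn X)
    (hu : IsUnit X.det) : Resp θn θn cn cn X⁻¹ := by
  refine ⟨?_, class_of_commute fun o => ?_⟩
  · have h1 : X.map star * X⁻¹.map star = 1 := by
      rw [← SU2.map_star_mul, Matrix.mul_nonsing_inv _ hu,
        Matrix.map_one _ (star_zero ℂ) (star_one ℂ)]
    calc θn * X⁻¹.map star = X⁻¹ * X * θn * X⁻¹.map star := by
          rw [Matrix.nonsing_inv_mul _ hu, Matrix.one_mul]
      _ = X⁻¹ * (X * θn) * X⁻¹.map star := by simp only [Matrix.mul_assoc]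
      _ = X⁻¹ * θn * (X.map star * X⁻¹.map star) := by
          rw [← hX.1]; simp only [Matrix.mul_assoc]
      _ = X⁻¹ * θn := by rw [h1, Matrix.mul_one]
  · show sibProj cn o * X⁻¹ = X⁻¹ * sibProj cn o
    have h := (sibProj_commute hX.2 o).eq
    calc sibProj cn o * X⁻¹ = X⁻¹ * (X * sibProj cn o) * X⁻¹ := by
          rw [← Matrix.mul_assoc X⁻¹, Matrix.nonsing_inv_mul _ hu, Matrix.one_mul]
      _ = X⁻¹ * sibProj cn o * (X * X⁻¹) := by rw [← h]; simp only [Matrix.mul_assoc]
      _ = _ := by rw [Matrix.mul_nonsing_inv _ hu, Matrix.mul_one]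

/-- The adjoint, for a unitary real structure. -/
theorem Resp.conjTranspose (hθ : θnᴴ * θn = 1) {X : Matrix n n ℂ} (hX : Resp θn θn cn cn X) :
    Resp θn θn cn cn Xᴴ := by
  refine ⟨?_, fun x y h => by rw [conjTranspose_apply, hX.2 y x (Ne.symm h), star_zero]⟩
  have e : Xᴴ.map star = (X.map star)ᴴ := by
    ext i j
    simp
  have h1 : (X.map star)ᴴ * θnᴴ = θnᴴ * Xᴴ := by
    rw [← conjTranspose_mul, hX.1, conjTranspose_mul]
  calc θn * Xᴴ.map star = θn * ((X.map star)ᴴ * (θnᴴ * θn)) := by rw [hθ, Matrix.mul_one, e]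
    _ = θn * θnᴴ * Xᴴ * θn := by
        rw [← Matrix.mul_assoc ((X.map star)ᴴ), h1]; simp only [Matrix.mul_assoc]
    _ = Xᴴ * θn := by rw [mul_eq_one_comm.1 hθ, Matrix.one_mul]

/-- The selection of the rows of an injection. -/
def sel (e : m → n) : Matrix n m ℂ := (1 : Matrix n n ℂ).submatrix id e

omit [Fintype m] [Fintype n] [DecidableEq m] in
theorem sel_apply (e : m → n) (z : n) (x : m) : sel e z x = if z = e x then 1 else 0 :=
  Matrix.one_apply

theorem sel_map_star (e : m → n) : (sel e).map star = sel e := by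
  ext i j
  simp [sel_apply, apply_ite (starRingEnd ℂ)]

theorem sel_conjTranspose (e : m → n) : (sel e)ᴴ = (sel e)ᵀ := by
  ext i j
  simp [sel_apply, apply_ite (starRingEnd ℂ)]

theorem sel_resp {e : m → n} (he : Function.Injective e) (hθ : ∀ x y, θm x y = θn (e x) (e y))
    (hclosed : ∀ x z, θn z (e x) ≠ 0 → z ∈ Set.range e) (hc : ∀ x, cn (e x) = cm x) :
    Resp θn θm cn cm (sel e) := by
  refine ⟨?_, fun z x h => by rw [sel_apply, if_neg fun e' => h (by rw [e', hc])]⟩
  ext z y
  rw [sel_map_star, Matrix.mul_apply, Matrix.mul_apply,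
    Finset.sum_eq_single (e y) (fun w _ hw => by simp [sel_apply, hw]) (by simp), sel_apply,
    if_pos rfl, mul_one]
  by_cases hz : z ∈ Set.range e
  · obtain ⟨x, rfl⟩ := hz
    rw [Finset.sum_eq_single x (fun w _ hw => by
      rw [sel_apply, if_neg (fun h => hw (he h).symm), zero_mul]) (by simp), sel_apply, if_pos rfl,
      one_mul, hθ]
  · rw [Finset.sum_eq_zero fun w _ => by
      rw [sel_apply, if_neg (fun h : z = e w => hz ⟨w, h.symm⟩), zero_mul]]
    by_contra h
    exact hz (hclosed y z h)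

theorem sel_adjoint_resp {e : m → n} (he : Function.Injective e)
    (hθ : ∀ x y, θm x y = θn (e x) (e y))
    (hclosed : ∀ x z, θn (e x) z ≠ 0 → z ∈ Set.range e) (hc : ∀ x, cn (e x) = cm x) :
    Resp θm θn cm cn (sel e)ᴴ := by
  rw [sel_conjTranspose]
  refine ⟨?_, fun x z h => by
    rw [transpose_apply, sel_apply, if_neg fun e' => h (by rw [e', hc])]⟩
  ext x z
  rw [show ((sel e)ᵀ).map star = (sel e)ᵀ by
    ext i j
    simp [sel_apply, apply_ite (starRingEnd ℂ)], Matrix.mul_apply, Matrix.mul_apply,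
    Finset.sum_eq_single (M := ℂ) (s := (Finset.univ : Finset n)) (e x)
      (fun w _ hw => by simp [sel_apply, hw]) (by simp), transpose_apply, sel_apply, if_pos rfl,
    one_mul]
  by_cases hz : z ∈ Set.range e
  · obtain ⟨y, rfl⟩ := hz
    rw [Finset.sum_eq_single y (fun w _ hw => by
      rw [transpose_apply, sel_apply, if_neg (fun h => hw (he h).symm), mul_zero]) (by simp),
      transpose_apply, sel_apply, if_pos rfl, mul_one, hθ]
  · rw [Finset.sum_eq_zero fun w _ => by
      rw [transpose_apply, sel_apply, if_neg (fun h : z = e w => hz ⟨w, h.symm⟩), mul_zero]]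
    by_contra h
    exact hz (hclosed x z (Ne.symm h))

end Vale.Agent.P225.Real'
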